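import Mathlib.MeasureTheory.Function.Jacobian
import Mathlib.MeasureTheory.Measure.Lebesgue.Complex
import Mathlib.MeasureTheory.Measure.Haar.InnerProductSpace
import Mathlib.RingTheory.Complex
import Mathlib.RingTheory.Norm.Transitivity
import Mathlib.Analysis.Complex.Basic
import Mathlib.Analysis.Calculus.Deriv.Basic
import Mathlib.Analysis.Calculus.FDeriv.RestrictScalars
import Mathlib.Analysis.Calculus.FDeriv.Prod

/-!
Change of variables by a holomorphic bijection in each coordinate.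
-/

namespace Vale.Agent.Q144

open MeasureTheory Set

/-- The real differential of `x ↦ (φ (x i))_i`. -/
noncomputable def dg {n : ℕ} (c : Fin n → ℂ) : (Fin n → ℂ) →L[ℝ] (Fin n → ℂ) :=
  ContinuousLinearMap.pi fun i =>
    ((ContinuousLinearMap.toSpanSingleton ℂ (c i)).restrictScalars ℝ).comp
      (ContinuousLinearMap.proj i)

theorem det_one (c : ℂ) :
    LinearMap.det (((ContinuousLinearMap.toSpanSingleton ℂ c).restrictScalars ℝ : ℂ →L[ℝ] ℂ) :
      ℂ →ₗ[ℝ] ℂ) = ‖c‖ ^ 2 := by
  have e : (((ContinuousLinearMap.toSpanSingleton ℂ c).restrictScalars ℝ : ℂ →L[ℝ] ℂ) :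
      ℂ →ₗ[ℝ] ℂ) = Algebra.lmul ℝ ℂ c := by
    ext
    simp [mul_comm]
  rw [e, ← Algebra.norm_apply, Algebra.norm_complex_apply, Complex.normSq_eq_norm_sq]

theorem det_dg {n : ℕ} (c : Fin n → ℂ) : (dg c).det = ∏ i, ‖c i‖ ^ 2 := by
  have := LinearMap.det_pi (R := ℝ) (ι := Fin n) (M := ℂ) fun i =>
    (((ContinuousLinearMap.toSpanSingleton ℂ (c i)).restrictScalars ℝ : ℂ →L[ℝ] ℂ) : ℂ →ₗ[ℝ] ℂ)
  simp only [det_one] at this
  exact this

theorem chg {D D' : Set ℂ} (hD : IsOpen D) {φ : ℂ → ℂ} (hd : DifferentiableOn ℂ φ D)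
    (hb : BijOn φ D D') {n : ℕ} (G : (Fin n → ℂ) → ℝ) :
    ∫ y in pi univ fun _ => D', G y =
      ∫ x in pi univ fun _ => D, (∏ i, ‖deriv φ (x i)‖ ^ 2) * G fun i => φ (x i) := by
  have : Measure.IsAddHaarMeasure (volume : Measure (Fin n → ℂ)) :=
    inferInstanceAs (Measure.IsAddHaarMeasure (Measure.pi fun _ => volume))
  have im : (fun (x : Fin n → ℂ) i => φ (x i)) '' (pi univ fun _ => D) = pi univ fun _ => D' := by
    ext y
    constructor
    · rintro ⟨x, hx, rfl⟩ i _
      exact hb.mapsTo (hx i trivial)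
    · intro hy
      choose x hx e using fun i => hb.surjOn (hy i trivial)
      exact ⟨x, fun i _ => hx i, funext e⟩
  rw [← im, integral_image_eq_integral_abs_det_fderiv_smul volume
    (f' := fun x => dg fun i => deriv φ (x i))
    (MeasurableSet.univ_pi fun _ => hD.measurableSet)]
  · refine integral_congr_ae (Filter.Eventually.of_forall fun x => ?_)
    simp only [det_dg, smul_eq_mul]
    rw [abs_of_nonneg (Finset.prod_nonneg fun i _ => by positivity)]
  · intro x hx
    refine HasFDerivAt.hasFDerivWithinAt (hasFDerivAt_pi.2 fun i => ?_)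
    have h := ((hd.differentiableAt (hD.mem_nhds (hx i trivial))).hasDerivAt.hasFDerivAt
      ).restrictScalars ℝ
    exact h.comp x (hasFDerivAt_apply (𝕜 := ℝ) i x)
  · intro x hx y hy e
    exact funext fun i => hb.injOn (hx i trivial) (hy i trivial) (congrFun e i)

end Vale.Agent.Q144
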