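import Vale.Agent.N144.DefsB
import Vale.Agent.N144.DefsS
import Vale.Agent.P144U.Stmt
import Vale.Agent.P144E.Ge5.B

/-!
Domains, conformal covariance, and the universality of the spin field.
-/

namespace Vale.Agent.Q144

open Filter Topology MeasureTheory TopologicalSpace Metric
open Vale.Agent.P144 Vale.Agent.P144Z Vale.Agent.P144F58

/-- Bounded open sets with continuously differentiable boundary: near each boundary point the set
is `{F > 0}`, where `F` vanishes at the point and has a nonzero differential there. -/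
def IsC1Loc (D : Set ℂ) : Prop :=
  IsOpen D ∧ Bornology.IsBounded D ∧ ∀ z ∈ frontier D, ∃ F : ℂ → ℝ, ContDiff ℝ 1 F ∧ F z = 0 ∧
    fderiv ℝ F z ≠ 0 ∧ ∃ r > (0 : ℝ), D ∩ ball z r = {w | 0 < F w} ∩ ball z r

/-- At each boundary point the complement of `D` contains a small closed circular sector whose
half-opening has cosine `c`. -/
def OutSect (c : ℝ) (D : Set ℂ) : Prop :=
  ∀ z ∈ frontier D, ∃ r > (0 : ℝ), ∃ ν : ℂ, ‖ν‖ = 1 ∧
    ∀ v : ℂ, ‖v‖ < r → c * ‖v‖ ≤ v.re * ν.re + v.im * ν.im → z + v ∉ D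

/-- Bounded domains (of any connectivity) that have a continuously differentiable boundary, or are
convex, or `K`-Lipschitz, or piecewise smooth or polygonal without sharp reentrant corners. -/
def Dom (K : ℝ) (D : Set ℂ) : Prop :=
  IsConnected D ∧ (IsC1Loc D ∨ IsOpen D ∧ Bornology.IsBounded D ∧ Convex ℝ D ∨ IsLip K D ∨
    IsPC1 D ∧ (∃ c < √2 / 2, OutSect c D) ∨ IsPolygon D ∧ OutSect (√2 / 2) D)

/-- Conformal covariance at `p`, with weight `1 / 8` per spin and `1` per energy. -/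
def Cov (φ : ℂ → ℂ) (C C' : Pts → ℝ) (p : Pts) : Prop :=
  C p = (∏ i, ‖deriv φ (p.x i)‖ ^ (1 / 8 : ℝ)) * (∏ k, ‖deriv φ (p.y k)‖) *
    C' { p with x := fun i => φ (p.x i), y := fun k => φ (p.y k) }

/-- The spin field of mesh `a` is a random distribution `X a` in `U`. In `E₀` it converges in law
to the only law `P` whose moments are the integrals of `C`; in `E` it converges in law to `Z • T`,
where `T` has the law `P`. -/
def FieldUniv (U : Opens ℂ) (E₀ E : Fam) (Z : ℝ) (C : Pts → ℝ) : Prop :=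
  ∃ X : ℝ → Config → Distribution U ℝ ⊤,
    (∀ a > 0, @Measurable _ _ _ (borel _) (X a) ∧ ∀ σ f, X a σ f = smear a f σ) ∧
    ∃ P, P144M13.DistMom U 1 C P ∧ (∀ P', P144M13.DistMom U 1 C P' → P' = P) ∧
      ∀ F : BoundedContinuousFunction (Distribution U ℝ ⊤) ℝ,
        Tendsto (fun a => E₀ a fun σ => F (X a σ)) (𝓝[>] 0) (𝓝 (∫ T, F T ∂P)) ∧
        Tendsto (fun a => E a fun σ => F (X a σ)) (𝓝[>] 0) (𝓝 (∫ T, F (Z • T) ∂P))

/-- Conformal covariance of the limit of the spin field: if `f i = |φ'| ^ (2 - 1 / 8) * g i ∘ φ`,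
the field in `D` smeared with the `f i` and the field in `D'` smeared with the `g i` have the same
limit in law. -/
def FieldCov (D D' : Set ℂ) (φ : ℂ → ℂ) (E E' : Fam) : Prop :=
  ∀ (k : ℕ) (f g : Fin k → ℂ → ℝ),
    (∀ i, Test (f i) ∧ Function.support (f i) ⊆ D ∧ Test (g i) ∧ Function.support (g i) ⊆ D' ∧
      ∀ x ∈ D, f i x = ‖deriv φ x‖ ^ (2 - 1 / 8 : ℝ) * g i (φ x)) →
    ∃ ν : Measure (EuclideanSpace ℝ (Fin k)), IsProbabilityMeasure ν ∧
      ∀ F : BoundedContinuousFunction (EuclideanSpace ℝ (Fin k)) ℝ,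
        Tendsto (fun a => E a fun σ => F (WithLp.toLp 2 fun i => smear a (f i) σ)) (𝓝[>] 0)
          (𝓝 (∫ y, F y ∂ν)) ∧
        Tendsto (fun a => E' a fun σ => F (WithLp.toLp 2 fun i => smear a (g i) σ)) (𝓝[>] 0)
          (𝓝 (∫ y, F y ∂ν))

end Vale.Agent.Q144
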