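import Vale.Agent.Q144.Defs
import Vale.Agent.Q144.Chg
import Vale.Agent.P144V.Main
import Vale.Agent.P144W.Conv

/-!
The limit of the field is a multiple of the critical field, and is conformally covariant.
-/

namespace Vale.Agent.Q144

open Filter Topology MeasureTheory TopologicalSpace Metric
open Vale.Agent.P144 Vale.Agent.P144Z Vale.Agent.P144F58 Vale.Agent.N144 Vale.Agent.P153D

theorem testU {U : Opens ℂ} (f : TestFunction U ℝ ⊤) : Test f := by
  refine ⟨f.contDiff.continuous.measurable, ?_,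
    f.hasCompactSupport.isCompact.isBounded.subset (subset_tsupport _)⟩
  obtain ⟨B, hB⟩ := f.contDiff.continuous.bounded_above_of_compact_support f.hasCompactSupport
  exact ⟨B, hB⟩

theorem cont_XU {U : Opens ℂ} {a : ℝ} {X : Config → Distribution U ℝ ⊤}
    (hX : ∀ σ (f : TestFunction U ℝ ⊤), X σ f = smear a f σ) : Continuous X := by
  obtain ⟨Q, hQ, hS⟩ := P153DC.ala U (Set.range X) fun K hK _ => by
    refine ⟨0, |a ^ (-(1 / 8) : ℝ)| * volume.real K, ?_⟩
    rintro _ ⟨σ, rfl⟩ φ hφ B hB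
    have hb : ∀ x, |φ x| ≤ B := fun x => by simpa using hB 0 le_rfl x
    have h1 : ∫ x, |φ x| ≤ volume.real K * B := by
      rw [← setIntegral_eq_integral_of_forall_compl_eq_zero (s := K) fun x hx => by
        rw [image_eq_zero_of_notMem_tsupport fun h => hx (hφ h), abs_zero], mul_comm]
      refine (le_abs_self _).trans ?_
      rw [← Real.norm_eq_abs]
      exact norm_setIntegral_le_of_norm_le_const hK.measure_lt_top fun x _ => by
        simpa using hb x
    rw [hX, mul_assoc]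
    refine le_trans ?_ (mul_le_mul_of_nonneg_left h1 (abs_nonneg _))
    rw [← integral_const_mul]
    exact norm_integral_le_of_norm_le ((testU φ).int.abs.const_mul _)
      (Eventually.of_forall (smear_bd φ a σ))
  have := isCompact_iff_compactSpace.1 hQ
  have hc : Continuous fun (T : Q) (f : TestFunction U ℝ ⊤) => T.1 f :=
    continuous_pi fun f => (cont_ev f).comp continuous_subtype_val
  have he := hc.isClosedEmbedding fun T T' h => Subtype.ext (DFunLike.ext _ _ (congrFun h))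
  have h2 : Continuous fun σ => (⟨X σ, hS ⟨σ, rfl⟩⟩ : Q) :=
    he.isInducing.continuous_iff.2 (continuous_pi fun f => by
      simpa only [Function.comp_def, hX] using P144V.smear_cont (testU f) a)
  exact continuous_subtype_val.comp h2

/-- The convergence in law of the field in `E`, to the only law with the moments `Z ^ n * C`. -/
def Conv (U : Opens ℂ) (E : Fam) (Z : ℝ) (C : Pts → ℝ) : Prop :=
  ∃ X : ℝ → Config → Distribution U ℝ ⊤, (∀ a > 0, ∀ σ f, X a σ f = smear a f σ) ∧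
    ∃ P, P144M13.DistMom U Z C P ∧ (∀ P', P144M13.DistMom U Z C P' → P' = P) ∧
      ∀ F : BoundedContinuousFunction (Distribution U ℝ ⊤) ℝ,
        Tendsto (fun a => E a fun σ => F (X a σ)) (𝓝[>] 0) (𝓝 (∫ T, F T ∂P))

theorem conv_of_fieldLim {U : Opens ℂ} {E : Fam} {Z : ℝ} {C : Pts → ℝ}
    (h : P144M13.FieldLim U E Z C) : Conv U E Z C :=
  let ⟨_, X, hX, h⟩ := h
  ⟨X, fun a _ => hX a, h⟩

theorem conv_of_lawD {μ : Measure Config} {Z : ℝ} {C : Pts → ℝ} (h : P144V.LawD μ Z C) :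
    Conv ⊤ (famOf μ) Z C :=
  let ⟨X, hX, h⟩ := h
  ⟨X, fun a ha => (hX a ha).2, h⟩

theorem mom_smul {U : Opens ℂ} {Z : ℝ} {C : Pts → ℝ} {P : Measure (Distribution U ℝ ⊤)}
    (h : P144M13.DistMom U 1 C P) : P144M13.DistMom U Z C (P.map fun T => Z • T) := by
  have c : Continuous fun T : Distribution U ℝ ⊤ => Z • T := continuous_const_smul Z
  have := h.1
  refine ⟨Measure.isProbabilityMeasure_map c.measurable.aemeasurable, fun n hn f => ?_⟩
  have cp : Continuous fun T : Distribution U ℝ ⊤ => ∏ i, T (f i) :=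
    continuous_finsetProd _ fun i _ => cont_ev (f i)
  have e : ∀ T : Distribution U ℝ ⊤, ∏ i, (Z • T) (f i) = Z ^ n * ∏ i, T (f i) := fun T => by
    have : ∀ i, (Z • T) (f i) = Z * T (f i) := fun i => rfl
    simp only [this, Finset.prod_mul_distrib, Finset.prod_const, Finset.card_univ,
      Fintype.card_fin]
  obtain ⟨h1, h2⟩ := h.2 n hn f
  constructor
  · rw [integrable_map_measure cp.measurable.aestronglyMeasurable c.measurable.aemeasurable]
    simpa only [Function.comp_def, e] using h1.const_mul (Z ^ n)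
  · rw [integral_map c.measurable.aemeasurable cp.measurable.aestronglyMeasurable]
    simp only [e]
    rw [integral_const_mul, h2, one_pow, one_mul]

theorem univ_of {U : Opens ℂ} {E₀ E : Fam} {Z : ℝ} {C : Pts → ℝ} (h₀ : Conv U E₀ 1 C)
    (h : Conv U E Z C) : FieldUniv U E₀ E Z C := by
  obtain ⟨X, hX, P₀, p1, p2, p3⟩ := h₀
  obtain ⟨X', hX', P, -, q2, q3⟩ := h
  have c : Continuous fun T : Distribution U ℝ ⊤ => Z • T := continuous_const_smul Z
  refine ⟨X, fun a ha => ⟨(cont_XU (hX a ha)).measurable, hX a ha⟩, P₀, p1, p2,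
    fun F => ⟨p3 F, ?_⟩⟩
  have e := q3 F
  rw [← q2 _ (mom_smul p1),
    integral_map c.measurable.aemeasurable F.continuous.measurable.aestronglyMeasurable] at e
  refine e.congr' ?_
  filter_upwards [self_mem_nhdsWithin] with a ha
  have : X' a = X a := funext fun σ => DFunLike.ext _ _ fun f => by rw [hX a ha, hX' a ha]
  rw [this]

theorem int_cov {D D' : Set ℂ} (hD : IsOpen D) {φ : ℂ → ℂ} (hd : DifferentiableOn ℂ φ D)
    (hb : Set.BijOn φ D D') {C C' : Pts → ℝ} (hC : ∀ p, Good D p → Cov φ C C' p) {n : ℕ}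
    (hn : 0 < n) {f g : Fin n → ℂ → ℝ} (hf : ∀ i, Function.support (f i) ⊆ D)
    (hg : ∀ i, Function.support (g i) ⊆ D')
    (e : ∀ i, ∀ x ∈ D, f i x = ‖deriv φ x‖ ^ (2 - 1 / 8 : ℝ) * g i (φ x)) :
    ∫ x : Fin n → ℂ, (∏ i, f i (x i)) * C ⟨n, 0, x, ![], ![]⟩ =
      ∫ x : Fin n → ℂ, (∏ i, g i (x i)) * C' ⟨n, 0, x, ![], ![]⟩ := by
  have z : ∀ {S : Set ℂ} {u : Fin n → ℂ → ℝ} (A : Pts → ℝ), (∀ i, Function.support (u i) ⊆ S) →
      ∀ x : Fin n → ℂ, x ∉ Set.pi Set.univ (fun _ => S) →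
        (∏ i, u i (x i)) * A ⟨n, 0, x, ![], ![]⟩ = 0 := fun {S u} A hu x hx => by
    simp only [Set.mem_pi, Set.mem_univ, true_imp_iff, not_forall] at hx
    obtain ⟨i, hi⟩ := hx
    have h0 : u i (x i) = 0 := by_contra fun h => hi (hu i h)
    rw [Finset.prod_eq_zero (f := fun i => u i (x i)) (Finset.mem_univ i) h0, zero_mul]
  rw [← setIntegral_eq_integral_of_forall_compl_eq_zero (z C hf),
    ← setIntegral_eq_integral_of_forall_compl_eq_zero (z C' hg), chg hD hd hb]
  refine setIntegral_congr_ae (MeasurableSet.univ_pi fun _ => hD.measurableSet) ?_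
  filter_upwards [P144W.Cv.ae_inj n] with x hx hxD
  have gd : Good D ⟨n, 0, x, ![], ![]⟩ := by
    refine ⟨by simpa using hn, fun i => hxD i trivial, fun k => k.elim0, ?_⟩
    rintro (i | i) (j | j) h
    exacts [congrArg _ (hx h), j.elim0, i.elim0, i.elim0]
  have c := hC _ gd
  unfold Cov at c
  have y0 : (fun k : Fin 0 => φ ((![] : Fin 0 → ℂ) k)) = ![] := Subsingleton.elim _ _
  simp only [Finset.univ_eq_empty, Finset.prod_empty, mul_one, y0] at c
  rw [c, ← mul_assoc, ← mul_assoc, ← Finset.prod_mul_distrib, ← Finset.prod_mul_distrib]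
  congr 1
  refine Finset.prod_congr rfl fun i _ => ?_
  rw [e i _ (hxD i trivial), mul_right_comm,
    ← Real.rpow_add' (norm_nonneg _) (by norm_num), sub_add_cancel, Real.rpow_two]

theorem cov_of {D D' : Set ℂ} (hD : IsOpen D) {φ : ℂ → ℂ} (hd : DifferentiableOn ℂ φ D)
    (hb : Set.BijOn φ D D') {C C' : Pts → ℝ} (hC : ∀ p, Good D p → Cov φ C C' p) {E E' : Fam}
    {Z : ℝ} (h : LawB D E Z C) (h' : LawB D' E' Z C') : FieldCov D D' φ E E' := by
  intro k f g hfg
  obtain ⟨ν, p1, p2, p3⟩ := h k f fun i => ⟨(hfg i).1, (hfg i).2.1⟩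
  obtain ⟨ν', q1, -, q3⟩ := h' k g fun i => ⟨(hfg i).2.2.1, (hfg i).2.2.2.1⟩
  have e : ν' = ν := p2 ν' ⟨q1.1, fun n hn i => ⟨(q1.2 n hn i).1, by
    rw [(q1.2 n hn i).2, int_cov hD hd hb hC hn (f := fun j => f (i j)) (g := fun j => g (i j))
      (fun j => (hfg _).2.1) (fun j => (hfg _).2.2.2.1) fun j => (hfg _).2.2.2.2]⟩⟩
  exact ⟨ν, p1.1, fun F => ⟨p3 F, e ▸ q3 F⟩⟩

end Vale.Agent.Q144
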