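import Vale.Agent.Q144.Defs
import Mathlib.Analysis.Calculus.ContDiff.Operations
import Mathlib.Analysis.Complex.Basic
import Mathlib.Analysis.SpecialFunctions.Sqrt

/-!
Domains with continuously differentiable boundary.
-/

namespace Vale.Agent.Q144

open Filter Topology

theorem lin_apply (L : ℂ →L[ℝ] ℝ) (v : ℂ) : L v = v.re * L 1 + v.im * L Complex.I := by
  conv_lhs => rw [← Complex.re_add_im v]
  have e1 : (v.re : ℂ) = v.re • (1 : ℂ) := by simp
  have e2 : (v.im : ℂ) * Complex.I = v.im • Complex.I := by simp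
  rw [map_add, e2, e1, map_smul, map_smul, smul_eq_mul, smul_eq_mul]

theorem lin_pos {L : ℂ →L[ℝ] ℝ} (h : L ≠ 0) : 0 < L 1 ^ 2 + L Complex.I ^ 2 := by
  by_contra hc
  have h1 : L 1 = 0 := by nlinarith [sq_nonneg (L 1), sq_nonneg (L Complex.I)]
  have h2 : L Complex.I = 0 := by nlinarith [sq_nonneg (L 1), sq_nonneg (L Complex.I)]
  exact h (ContinuousLinearMap.ext fun v => by rw [lin_apply, h1, h2]; simp)

theorem c1_G {L : ℂ →L[ℝ] ℝ} (z : ℂ) (h : L ≠ 0) : ∃ G : ℂ → ℝ, ContDiff ℝ 1 G ∧ G z = 0 ∧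
    ∀ s t : ℝ, s • L + t • fderiv ℝ G z = 0 → s = 0 ∧ t = 0 := by
  let M : ℂ →L[ℝ] ℝ := (L Complex.I) • Complex.reCLM - (L 1) • Complex.imCLM
  refine ⟨fun w => M w - M z, M.contDiff.sub contDiff_const, sub_self _, fun s t e => ?_⟩
  have d : fderiv ℝ (fun w => M w - M z) z = M := (M.hasFDerivAt.sub_const _).fderiv
  rw [d] at e
  have e1 := congrArg (fun T : ℂ →L[ℝ] ℝ => T 1) e
  have e2 := congrArg (fun T : ℂ →L[ℝ] ℝ => T Complex.I) e
  simp [M] at e1 e2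
  have p := lin_pos h
  constructor
  · have : s * (L 1 ^ 2 + L Complex.I ^ 2) = 0 := by linear_combination L 1 * e1 + L Complex.I * e2
    exact (mul_eq_zero.1 this).resolve_right p.ne'
  · have : t * (L 1 ^ 2 + L Complex.I ^ 2) = 0 := by linear_combination L Complex.I * e1 - L 1 * e2
    exact (mul_eq_zero.1 this).resolve_right p.ne'

theorem c1_sect {F : ℂ → ℝ} {z : ℂ} (hF : DifferentiableAt ℝ F z) (h0 : F z = 0)
    (h : fderiv ℝ F z ≠ 0) : ∃ r > (0 : ℝ), ∃ ν : ℂ, ‖ν‖ = 1 ∧ ∀ v : ℂ, ‖v‖ < r →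
      1 / 2 * ‖v‖ ≤ v.re * ν.re + v.im * ν.im → F (z + v) ≤ 0 := by
  set L := fderiv ℝ F z
  have p := lin_pos h
  set N := √(L 1 ^ 2 + L Complex.I ^ 2)
  have hN : 0 < N := Real.sqrt_pos.2 p
  have hN2 : N ^ 2 = L 1 ^ 2 + L Complex.I ^ 2 := Real.sq_sqrt p.le
  have o := (hasFDerivAt_iff_isLittleO_nhds_zero.1 hF.hasFDerivAt).def (c := N / 2) (by positivity)
  obtain ⟨r, hr, hb⟩ := Metric.eventually_nhds_iff.1 o
  refine ⟨r, hr, ⟨-L 1 / N, -L Complex.I / N⟩, ?_, fun v hv hc => ?_⟩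
  · rw [Complex.norm_eq_sqrt_sq_add_sq, Real.sqrt_eq_one]
    field_simp
    linarith
  · have b := hb (y := v) (by simpa using hv)
    rw [h0, sub_zero, Real.norm_eq_abs] at b
    have b' := (abs_le.1 b).2
    have e : L v = -(N * (v.re * (-L 1 / N) + v.im * (-L Complex.I / N))) := by
      rw [lin_apply]
      field_simp
      ring
    have := mul_le_mul_of_nonneg_left hc hN.le
    simp only at this
    linarith

open Vale.Agent.P144Z

theorem IsC1Loc.pc1 {D : Set ℂ} (h : IsC1Loc D) : IsPC1 D := by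
  refine ⟨h.1, h.2.1, fun z hz => ?_⟩
  obtain ⟨F, h1, h2, h3, r, hr, e⟩ := h.2.2 z hz
  obtain ⟨G, g1, g2, g3⟩ := c1_G z h3
  exact ⟨F, G, h1, g1, h2, g2, g3, r, hr, Or.inl e⟩

theorem IsC1Loc.sect {D : Set ℂ} (h : IsC1Loc D) : OutSect (1 / 2) D := by
  intro z hz
  obtain ⟨F, h1, h2, h3, r, hr, e⟩ := h.2.2 z hz
  obtain ⟨r', hr', ν, n1, n2⟩ := c1_sect (h1.differentiable one_ne_zero z) h2 h3
  refine ⟨min r r', lt_min hr hr', ν, n1, fun v hv hc hD => ?_⟩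
  have m : z + v ∈ D ∩ Metric.ball z r := ⟨hD, by simpa using hv.trans_le (min_le_left _ _)⟩
  rw [e] at m
  exact absurd m.1 (not_lt.2 (n2 v (hv.trans_le (min_le_right _ _)) hc))

theorem half_lt : (1 / 2 : ℝ) < √2 / 2 := by
  have : (1 : ℝ) < √2 := Real.lt_sqrt_of_sq_lt (by norm_num)
  linarith

theorem isLip_mono {K K' : ℝ} (hK : K ≤ K') {D : Set ℂ} (h : IsLip K D) : IsLip K' D := by
  refine ⟨h.1, h.2.1, fun z hz => ?_⟩
  obtain ⟨r, hr, u, hu, g, hg, e⟩ := h.2.2 z hz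
  exact ⟨r, hr, u, hu, g, fun s t => (hg s t).trans
    (mul_le_mul_of_nonneg_right hK (abs_nonneg _)), e⟩

theorem Dom.mono {K K' : ℝ} (hK : K ≤ K') {D : Set ℂ} (h : Dom K D) : Dom K' D :=
  ⟨h.1, h.2.imp_right fun h => h.imp_right fun h => h.imp_left (isLip_mono hK)⟩

theorem Dom.isOpen {K : ℝ} {D : Set ℂ} (h : Dom K D) : IsOpen D := by
  rcases h.2 with h | h | h | h | h
  exacts [h.1, h.1, h.1, h.1.1, h.1.1]

end Vale.Agent.Q144
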