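import Vale.Agent.N144.W.Fin2
import Vale.Agent.Q144.Fld
import Vale.Agent.Q144.Geo

/-!
One critical temperature, two normalisations and one plane state for the correlations and for the
field.
-/

namespace Vale.Agent.Q144

open Filter Topology MeasureTheory TopologicalSpace Metric
open Vale.Agent.P144 Vale.Agent.P144Z Vale.Agent.P144F58 Vale.Agent.N144

theorem Dom.nice {D : Set ℂ} (h : Dom 1 D) {b : Option (ℝ → Config)} (hb : StdBC b) :
    P144Y.Nice D b := by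
  refine ⟨h.1, Or.inl ⟨?_, hb⟩⟩
  rcases h.2 with h | h | h | h | h
  exacts [Or.inr (Or.inr (Or.inr (Or.inl ⟨h.pc1, _, half_lt, h.sect⟩))), Or.inr (Or.inl h),
    Or.inr (Or.inr (Or.inl h)), Or.inr (Or.inr (Or.inr (Or.inl h))),
    Or.inr (Or.inr (Or.inr (Or.inr h)))]

theorem Dom.cls {K : ℝ} {D : Set ℂ} (h : Dom K D) {b : Option (ℝ → Config)} (hb : StdBC b) :
    (IsC1 D ∨ IsPC1 D ∨ IsPolygon D ∨ IsOpen D ∧ Bornology.IsBounded D ∧ Convex ℝ D) ∧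
      (StdBC b ∨ SignBC D b) ∨ IsLip K D ∧ StdBC b := by
  rcases h.2 with h | h | h | h | h
  exacts [Or.inl ⟨Or.inr (Or.inl h.pc1), Or.inl hb⟩,
    Or.inl ⟨Or.inr (Or.inr (Or.inr h)), Or.inl hb⟩, Or.inr ⟨h, hb⟩,
    Or.inl ⟨Or.inr (Or.inl h.1), Or.inl hb⟩, Or.inl ⟨Or.inr (Or.inr (Or.inl h.1)), Or.inl hb⟩]

theorem inDom_zero (J : ℝ) (V : Finset Site → ℝ) (D : Set ℂ) (b : Option (ℝ → Config)) :
    inDom J 0 V (Kc / J) D b = crit J D b := by
  have e : ∀ P, energy J 0 V P = energy J 0 (fun _ => 0) P := fun P => by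
    funext σ
    simp only [energy, zero_mul]
  funext a F
  cases b <;> simp only [crit, inDom, gibbs, Option.map, e]

theorem main : ∀ J > 0,
    ∃ (μ₀ : Measure Config) (C : Pts → ℝ) (CD : Set ℂ → Option (ℝ → Config) → Pts → ℝ),
    (∀ μ, IsPlaneState J 0 (fun _ => 0) (Kc / J) μ ↔ μ = μ₀) ∧
    LocLim Set.univ (famOf μ₀) C ∧
    (∀ p, Good Set.univ p → (∀ j, C { p with j := j } = C p) ∧ (p.m = 0 → Even p.n → 0 < C p) ∧
      ∀ w t : ℂ, w ≠ 0 → Cov (fun z => w * z + t) C C p) ∧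
    (∀ D b, Dom 1 D → StdBC b → LocLim D (crit J D b) (CD D b) ∧ ∀ p, Good D p →
      (∀ j, CD D b { p with j := j } = CD D b p) ∧
      (p.m = 0 → (b = none ∧ Even p.n ∨ b = some fun _ _ => true) → 0 < CD D b p) ∧
      ∀ D' φ, Dom 1 D' → DifferentiableOn ℂ φ D → Set.BijOn φ D D' →
        Cov φ (CD D b) (CD D' b) p) ∧
    ∀ K < 1, ∀ V, IsPotential V → ∃ lam₀ > 0,
      ∃ β Zσ Zε : ℝ → ℝ, AnalyticOnNhd ℝ β (Set.Ioo (-lam₀) lam₀) ∧
      AnalyticOnNhd ℝ Zσ (Set.Ioo (-lam₀) lam₀) ∧ AnalyticOnNhd ℝ Zε (Set.Ioo (-lam₀) lam₀) ∧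
      β 0 = Kc / J ∧ Zσ 0 = 1 ∧ Zε 0 = 1 ∧ ∀ lam : ℝ, |lam| < lam₀ →
        0 < β lam ∧ 0 < Zσ lam ∧ 0 < Zε lam ∧
        (∃ μ, IsPlaneState J lam V (β lam) μ ∧ IsTorusState J lam V (β lam) μ ∧
          LocLim Set.univ (famOf μ) (fun p => Zσ lam ^ p.n * Zε lam ^ p.m * C p) ∧
          FieldUniv ⊤ (famOf μ₀) (famOf μ) (Zσ lam) C ∧
          MomB Set.univ (famOf μ) (Zσ lam) C ∧ FieldB Set.univ (famOf μ) (Zσ lam) C ∧
          ∀ w t : ℂ, w ≠ 0 →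
            FieldCov Set.univ Set.univ (fun z => w * z + t) (famOf μ) (famOf μ)) ∧
        (∀ (D : Opens ℂ) b, Dom K D → StdBC b →
          LocLim D (inDom J lam V (β lam) D b)
            (fun p => Zσ lam ^ p.n * Zε lam ^ p.m * CD D b p) ∧
          FieldUniv D (crit J D b) (inDom J lam V (β lam) D b) (Zσ lam) (CD D b) ∧
          MomB D (inDom J lam V (β lam) D b) (Zσ lam) (CD D b) ∧
          FieldB D (inDom J lam V (β lam) D b) (Zσ lam) (CD D b) ∧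
          ∀ D' φ, Dom K D' → DifferentiableOn ℂ φ D → Set.BijOn φ D D' →
            FieldCov D D' φ (inDom J lam V (β lam) D b) (inDom J lam V (β lam) D' b)) ∧
        ∀ D b, IsPC1 D ∨ IsOpen D ∧ Bornology.IsBounded D ∧ Convex ℝ D → SignBC D b →
          LocDiff D (crit J D b) (inDom J lam V (β lam) D b) (Zσ lam) (Zε lam) := by
  intro J hJ
  obtain ⟨C, CD, -, h2, h3, h4, h⟩ := WL.fin4 J hJ
  obtain ⟨μ₀, hμ₀, -⟩ := H436.free_plane hJ
  have t0 := U1.zero_state hJ hμ₀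
  have pr := hμ₀.1
  have h00 := P144W.spin_mom0 hJ (fun p hp => (h3 p hp).1) fun p hp => (h3 p hp).2.2.1
  have cv : ∀ w t : ℂ, w ≠ 0 → ∀ p, Good Set.univ p → Cov (fun z => w * z + t) C C p :=
    fun w t hw p hp => by
      have d : ∀ z : ℂ, deriv (fun z => w * z + t) z = w := fun z => by
        simpa using (((hasDerivAt_id z).const_mul w).add_const t).deriv
      simp only [Cov, d, Finset.prod_const, Finset.card_univ, Fintype.card_fin]
      exact (h3 p hp).2.2.2 w t hw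
  have cD : ∀ D D' b φ, Dom 1 D → Dom 1 D' → StdBC b → DifferentiableOn ℂ φ D → Set.BijOn φ D D' →
      ∀ p, Good D p → Cov φ (CD D b) (CD D' b) p := fun D D' b φ hD hD' hb d bij p hp =>
    ((h4 D b (hD.nice hb)).2 p hp).2.2.2 D' φ (hD'.nice hb) d bij
  refine ⟨μ₀, C, CD, fun μ => ⟨fun hμ => St.plane_eq_dlr hJ hμ t0.2.2.1, fun e => e ▸ hμ₀⟩,
    h2 _ (P144W.fam_self hμ₀), fun p hp => ⟨(h3 p hp).2.1, (h3 p hp).2.2.1,
      fun w t hw => cv w t hw p hp⟩, fun D b hD hb => ⟨(h4 D b (hD.nice hb)).1, fun p hp =>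
      ⟨((h4 D b (hD.nice hb)).2 p hp).2.1, ((h4 D b (hD.nice hb)).2 p hp).2.2.1,
        fun D' φ hD' d bij => cD D D' b φ hD hD' hb d bij p hp⟩⟩, fun K hK V hV => ?_⟩
  obtain ⟨lam₀, h0, β, Zσ, Zε, a1, a2, a3, a4, a5, a6, h⟩ := h K hK V hV
  refine ⟨lam₀, h0, β, Zσ, Zε, a1, a2, a3, a4, a5, a6, fun lam hl => ?_⟩
  obtain ⟨-, -, -, -, z⟩ := h 0 (by simpa using h0)
  obtain ⟨b1, b2, b3, ⟨μ, m1, m2, -, m4, m5, m6, m7, m8⟩, h⟩ := h lam hl
  refine ⟨b1, b2, b3, ⟨μ, m1, m2, m4, univ_of (conv_of_lawD (P144V.lawD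
    (P144W.C13.law hJ h00 (h00 μ₀ hμ₀)))) (conv_of_lawD m5), m6, m8, fun w t hw => ?_⟩,
    fun D b hD hb => ?_, fun D b hD hb => ?_⟩
  · have bij : Set.BijOn (fun z : ℂ => w * z + t) Set.univ Set.univ := by
      refine ⟨fun _ _ => Set.mem_univ _, fun x _ y _ e =>
        mul_left_cancel₀ hw (add_right_cancel e), fun y _ => ⟨(y - t) / w, Set.mem_univ _, ?_⟩⟩
      field_simp
      ring
    have dif : DifferentiableOn ℂ (fun z : ℂ => w * z + t) Set.univ := by fun_prop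
    exact cov_of isOpen_univ dif bij (cv w t hw) m7 m7
  · have n := (hD.mono hK.le).nice hb
    obtain ⟨c1, ⟨U, hU, c2⟩, c3, c4, c5⟩ := (h D b (hD.cls hb)).2.2.1 n
    obtain ⟨-, ⟨U', hU', c0⟩, -⟩ := (z D b (hD.cls hb)).2.2.1 n
    obtain rfl : U = D := Opens.ext hU
    obtain rfl : U' = U := Opens.ext hU'
    rw [a4, a5, inDom_zero] at c0
    refine ⟨c1, univ_of (conv_of_fieldLim c0) (conv_of_fieldLim c2), c3, c5,
      fun D' φ hD' d bij => cov_of hD.isOpen d bij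
        (cD _ D' b φ (hD.mono hK.le) (hD'.mono hK.le) hb d bij) c4
        ((h D' b (hD'.cls hb)).2.2.1 ((hD'.mono hK.le).nice hb)).2.2.2.1⟩
  · exact (h D b (Or.inl ⟨hD.elim (fun h => Or.inr (Or.inl h)) fun h => Or.inr (Or.inr (Or.inr h)),
      Or.inr hb⟩)).1

end Vale.Agent.Q144
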